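import Mathlib

open Polynomial Finset
open scoped ComplexConjugate

namespace Vale.Agent.Lib.P110

/-- The polynomial `p` equals a positive real multiple of `z ^ d` at every point of the unit circle. -/
def PosCircle (d : ℕ) (p : ℂ[X]) : Prop :=
  ∀ z : ℂ, ‖z‖ = 1 → ∃ r : ℝ, 0 < r ∧ p.eval z = r * z ^ d

lemma circle_infinite : {z : ℂ | ‖z‖ = 1}.Infinite := by
  have h : (Set.Icc (-1 : ℝ) 1).Infinite := Set.Icc_infinite (by norm_num)
  refine Set.Infinite.of_image Complex.re (h.mono ?_)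
  intro x hx
  refine ⟨⟨x, Real.sqrt (1 - x ^ 2)⟩, ?_, rfl⟩
  have hx' : 0 ≤ 1 - x ^ 2 := by nlinarith [hx.1, hx.2]
  have h2 : ‖(⟨x, Real.sqrt (1 - x ^ 2)⟩ : ℂ)‖ ^ 2 = 1 := by
    rw [Complex.sq_norm, Complex.normSq_mk]
    nlinarith [Real.mul_self_sqrt hx']
  have h3 : ‖(⟨x, Real.sqrt (1 - x ^ 2)⟩ : ℂ)‖ = 1 := by
    have := norm_nonneg (⟨x, Real.sqrt (1 - x ^ 2)⟩ : ℂ)
    nlinarith
  exact h3

lemma conj_eq_inv {z : ℂ} (hz : ‖z‖ = 1) : conj z = z⁻¹ := by
  rw [Complex.inv_def, Complex.normSq_eq_norm_sq, hz]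
  simp

lemma ne_zero_of_norm {z : ℂ} (hz : ‖z‖ = 1) : z ≠ 0 := by
  intro h
  rw [h] at hz
  simp at hz

/-- Reversal identity for a polynomial positive on the circle. -/
lemma reverse_eq {d : ℕ} {p : ℂ[X]} (hd : p.natDegree = 2 * d) (hp : PosCircle d p) :
    (p.map (starRingEnd ℂ)).reverse = p := by
  apply Polynomial.eq_of_infinite_eval_eq
  refine circle_infinite.mono ?_
  intro z hz
  have hz1 : ‖z‖ = 1 := hz
  have hz0 := ne_zero_of_norm hz1
  obtain ⟨r, _, hr⟩ := hp z hz1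
  show eval z (p.map (starRingEnd ℂ)).reverse = eval z p
  have hdeg : (p.map (starRingEnd ℂ)).natDegree = 2 * d := by
    rw [Polynomial.natDegree_map, hd]
  let _ : Invertible z⁻¹ := invertibleOfNonzero (inv_ne_zero hz0)
  have key := Polynomial.eval₂_reverse_mul_pow (RingHom.id ℂ) z⁻¹ (p.map (starRingEnd ℂ))
  rw [invOf_eq_inv, inv_inv, hdeg] at key
  simp only [Polynomial.eval₂_id] at key
  have h1 : eval z⁻¹ (p.map (starRingEnd ℂ)) = conj (eval z p) := by
    rw [← conj_eq_inv hz1, Polynomial.eval_map, Polynomial.eval₂_at_apply]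
  rw [h1, hr] at key
  have h2 : conj ((r : ℂ) * z ^ d) = r * (z⁻¹) ^ d := by
    rw [map_mul, map_pow, conj_eq_inv hz1, Complex.conj_ofReal]
  rw [h2] at key
  have hw : z⁻¹ ^ (2 * d) * z ^ (2 * d) = 1 := by
    rw [← mul_pow, inv_mul_cancel₀ hz0, one_pow]
  have hw2 : z⁻¹ ^ d * z ^ (2 * d) = z ^ d := by
    rw [two_mul, pow_add, ← mul_assoc, ← mul_pow, inv_mul_cancel₀ hz0, one_pow, one_mul]
  rw [hr]
  calc eval z (p.map (starRingEnd ℂ)).reverse
      = eval z (p.map (starRingEnd ℂ)).reverse * (z⁻¹ ^ (2 * d) * z ^ (2 * d)) := by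
        rw [hw, mul_one]
    _ = (eval z (p.map (starRingEnd ℂ)).reverse * z⁻¹ ^ (2 * d)) * z ^ (2 * d) := by ring
    _ = (r : ℂ) * z⁻¹ ^ d * z ^ (2 * d) := by rw [key]
    _ = (r : ℂ) * (z⁻¹ ^ d * z ^ (2 * d)) := by ring
    _ = (r : ℂ) * z ^ d := by rw [hw2]

lemma eval_conj_inv_root {d : ℕ} {p : ℂ[X]} (hd : p.natDegree = 2 * d) (hp : PosCircle d p)
    {ρ : ℂ} (hρ0 : ρ ≠ 0) (hρ : p.eval ρ = 0) : p.eval (conj ρ)⁻¹ = 0 := by
  have hrev := reverse_eq hd hp
  have hc : conj ρ ≠ 0 := by simpa using hρ0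
  have hdeg : (p.map (starRingEnd ℂ)).natDegree = 2 * d := by
    rw [Polynomial.natDegree_map, hd]
  let _ : Invertible (conj ρ) := invertibleOfNonzero hc
  have key := Polynomial.eval₂_reverse_mul_pow (RingHom.id ℂ) (conj ρ) (p.map (starRingEnd ℂ))
  rw [invOf_eq_inv, hdeg, hrev] at key
  simp only [Polynomial.eval₂_id] at key
  have h1 : eval (conj ρ) (p.map (starRingEnd ℂ)) = conj (eval ρ p) := by
    rw [Polynomial.eval_map, Polynomial.eval₂_at_apply]
  rw [h1, hρ, map_zero] at key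
  have hpow : (conj ρ) ^ (2 * d) ≠ 0 := pow_ne_zero _ hc
  exact (mul_eq_zero.mp key).resolve_right hpow

lemma coeff_zero_ne {d : ℕ} {p : ℂ[X]} (hd : p.natDegree = 2 * d) (hp : PosCircle d p) :
    p.eval 0 ≠ 0 := by
  have hrev := reverse_eq hd hp
  have hne : p ≠ 0 := by
    rintro rfl
    obtain ⟨r, hr0, hr⟩ := hp 1 (by simp)
    simp at hr
    exact hr0.ne' (by exact_mod_cast hr.symm)
  rw [← Polynomial.coeff_zero_eq_eval_zero, ← hrev, Polynomial.coeff_zero_reverse]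
  intro h
  have : p.map (starRingEnd ℂ) = 0 := Polynomial.leadingCoeff_eq_zero.mp h
  apply hne
  have hinj : Function.Injective (starRingEnd ℂ) := (starRingEnd ℂ).injective
  exact (Polynomial.map_eq_zero_iff hinj).mp this

/-- On the circle, `(z - ρ) (z - ρ') = - ‖z - ρ‖² z / conj ρ` with `ρ' = (conj ρ)⁻¹`. -/
lemma factor_identity {z ρ : ℂ} (hz : ‖z‖ = 1) (hρ0 : ρ ≠ 0) :
    (z - ρ) * (z - (conj ρ)⁻¹) = -((‖z - ρ‖ ^ 2 : ℝ) : ℂ) * z * (conj ρ)⁻¹ := by
  have hz0 := ne_zero_of_norm hz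
  have hc : conj ρ ≠ 0 := by simpa using hρ0
  have h1 : ((‖z - ρ‖ ^ 2 : ℝ) : ℂ) = (z - ρ) * conj (z - ρ) := by
    rw [Complex.mul_conj']
    push_cast
    ring
  rw [h1, map_sub, conj_eq_inv hz]
  field_simp
  ring

/-- Strict Fejér-Riesz factorization. -/
theorem fejer_riesz_strict (d : ℕ) : ∀ p : ℂ[X], p.natDegree = 2 * d → PosCircle d p →
    ∃ W : ℂ[X], W.natDegree ≤ d ∧
      ∀ z : ℂ, ‖z‖ = 1 → p.eval z = ((‖W.eval z‖ ^ 2 : ℝ) : ℂ) * z ^ d := by
  induction d with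
  | zero =>
    intro p hd hp
    have hd0 : p.natDegree = 0 := by simpa using hd
    obtain ⟨a, rfl⟩ : ∃ a, p = C a := ⟨p.coeff 0, Polynomial.eq_C_of_natDegree_eq_zero hd0⟩
    obtain ⟨r, hr0, hr⟩ := hp 1 (by simp)
    simp at hr
    refine ⟨C ((Real.sqrt r : ℝ) : ℂ), by simp, ?_⟩
    intro z _
    simp [hr, Real.sq_sqrt hr0.le]
  | succ d ih =>
    intro p hd hp
    have hdeg : p.degree ≠ 0 := by
      intro h
      have h0 : p.natDegree = 0 := Polynomial.natDegree_eq_of_degree_eq_some (by simpa using h)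
      omega
    obtain ⟨ρ, hρ⟩ := IsAlgClosed.exists_root p hdeg
    have hρe : p.eval ρ = 0 := hρ
    have hρ0 : ρ ≠ 0 := by
      rintro rfl
      exact coeff_zero_ne hd hp hρe
    have hρ1 : ‖ρ‖ ≠ 1 := by
      intro h
      obtain ⟨r, hr0, hr⟩ := hp ρ h
      rw [hρe] at hr
      have : (r : ℂ) * ρ ^ (d + 1) ≠ 0 :=
        mul_ne_zero (by exact_mod_cast hr0.ne') (pow_ne_zero _ hρ0)
      exact this hr.symm
    set ρ' : ℂ := (conj ρ)⁻¹ with hρ'
    have hρ'e : p.eval ρ' = 0 := eval_conj_inv_root hd hp hρ0 hρe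
    have hne : ρ' ≠ ρ := by
      intro h
      have h1 : ‖ρ'‖ = ‖ρ‖⁻¹ := by rw [hρ', norm_inv, RCLike.norm_conj]
      rw [h] at h1
      have hpos : 0 < ‖ρ‖ := norm_pos_iff.mpr hρ0
      apply hρ1
      field_simp at h1
      nlinarith
    obtain ⟨p₁, hp₁⟩ := Polynomial.dvd_iff_isRoot.mpr hρ
    have hp₁ρ' : p₁.eval ρ' = 0 := by
      have := hρ'e
      rw [hp₁, Polynomial.eval_mul] at this
      simp only [Polynomial.eval_sub, Polynomial.eval_X, Polynomial.eval_C] at this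
      exact (mul_eq_zero.mp this).resolve_left (sub_ne_zero.mpr hne)
    obtain ⟨q, hq⟩ := Polynomial.dvd_iff_isRoot.mpr (show p₁.IsRoot ρ' from hp₁ρ')
    have hpq : p = (X - C ρ) * ((X - C ρ') * q) := by rw [hp₁, hq]
    have hp0 : p ≠ 0 := by
      intro h0
      rw [h0] at hd
      simp at hd
    have hq0 : q ≠ 0 := by
      rintro rfl
      apply hp0
      simpa using hpq
    have hnat : q.natDegree = 2 * d := by
      have h1 : p.natDegree = 1 + (1 + q.natDegree) := by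
        rw [hpq, Polynomial.natDegree_mul (Polynomial.X_sub_C_ne_zero ρ)
          (mul_ne_zero (Polynomial.X_sub_C_ne_zero ρ') hq0),
          Polynomial.natDegree_mul (Polynomial.X_sub_C_ne_zero ρ') hq0,
          Polynomial.natDegree_X_sub_C, Polynomial.natDegree_X_sub_C]
      omega
    have hc : conj ρ ≠ 0 := by simpa using hρ0
    have hκ : (-(conj ρ)⁻¹) ≠ 0 := neg_ne_zero.mpr (inv_ne_zero hc)
    set q₁ : ℂ[X] := C (-(conj ρ)⁻¹) * q with hq₁
    have hq₁deg : q₁.natDegree = 2 * d := by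
      rw [hq₁, Polynomial.natDegree_C_mul hκ, hnat]
    have hid : ∀ z : ℂ, ‖z‖ = 1 →
        p.eval z = ((‖z - ρ‖ ^ 2 : ℝ) : ℂ) * z * q₁.eval z := by
      intro z hz
      rw [hpq, hq₁]
      simp only [Polynomial.eval_mul, Polynomial.eval_sub, Polynomial.eval_X, Polynomial.eval_C]
      have := factor_identity hz hρ0
      rw [← hρ'] at this
      calc (z - ρ) * ((z - ρ') * eval z q) = ((z - ρ) * (z - ρ')) * eval z q := by ring
        _ = _ := by rw [this]; ring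
    have hzρ : ∀ z : ℂ, ‖z‖ = 1 → 0 < ‖z - ρ‖ ^ 2 := by
      intro z hz
      have : z - ρ ≠ 0 := by
        intro h
        apply hρ1
        rw [← sub_eq_zero.mp h, hz]
      positivity
    have hq₁pos : PosCircle d q₁ := by
      intro z hz
      obtain ⟨r, hr0, hr⟩ := hp z hz
      have hz0 := ne_zero_of_norm hz
      have hpos := hzρ z hz
      refine ⟨r / ‖z - ρ‖ ^ 2, div_pos hr0 hpos, ?_⟩
      have h1 := hid z hz
      rw [hr] at h1
      have hne' : ((‖z - ρ‖ ^ 2 : ℝ) : ℂ) ≠ 0 := by exact_mod_cast hpos.ne'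
      have h2 : ((‖z - ρ‖ ^ 2 : ℝ) : ℂ) * eval z q₁ = r * z ^ d := by
        apply mul_left_cancel₀ hz0
        rw [pow_succ] at h1
        linear_combination -h1
      rw [Complex.ofReal_div, div_mul_eq_mul_div, eq_div_iff hne', mul_comm]
      exact h2
    obtain ⟨W₁, hW₁deg, hW₁⟩ := ih q₁ hq₁deg hq₁pos
    refine ⟨(X - C ρ) * W₁, ?_, ?_⟩
    · calc ((X - C ρ) * W₁).natDegree ≤ (X - C ρ).natDegree + W₁.natDegree :=
            Polynomial.natDegree_mul_le
        _ ≤ d + 1 := by rw [Polynomial.natDegree_X_sub_C]; omega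
    · intro z hz
      rw [hid z hz, hW₁ z hz]
      simp only [Polynomial.eval_mul, Polynomial.eval_sub, Polynomial.eval_X, Polynomial.eval_C,
        norm_mul]
      push_cast
      ring

end Vale.Agent.Lib.P110
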