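import Mathlib

open Finset

namespace Vale.Agent.Lib.P110

lemma sum_inv_sqrt_le (m : ℕ) :
    ∑ j ∈ range m, (Real.sqrt (j + 1))⁻¹ ≤ 2 * Real.sqrt m := by
  induction m with
  | zero => simp
  | succ m ih =>
    rw [sum_range_succ]
    push_cast
    have h1 : 0 < Real.sqrt ((m : ℝ) + 1) := Real.sqrt_pos.mpr (by positivity)
    have h2 : 0 ≤ Real.sqrt (m : ℝ) := Real.sqrt_nonneg _
    have hs1 : Real.sqrt ((m : ℝ) + 1) ^ 2 = m + 1 := Real.sq_sqrt (by positivity)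
    have hs2 : Real.sqrt (m : ℝ) ^ 2 = m := Real.sq_sqrt (by positivity)
    have h3 : (Real.sqrt ((m : ℝ) + 1))⁻¹ ≤ 2 * (Real.sqrt ((m : ℝ) + 1) - Real.sqrt m) := by
      rw [inv_le_iff_one_le_mul₀ h1]
      nlinarith [mul_self_nonneg (Real.sqrt ((m : ℝ) + 1) - Real.sqrt m)]
    linarith

/-- Telescoping bound for the tail of the series with terms `(j+1)^(-3/2)`. -/
lemma sum_inv_pow_three_half_le (m : ℕ) (hm : 0 < m) (n : ℕ) :
    ∑ j ∈ range n, ((Real.sqrt ((m + j : ℕ) + 1))⁻¹ * ((m + j : ℕ) + 1 : ℝ)⁻¹) ≤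
      2 * (Real.sqrt m)⁻¹ - 2 * (Real.sqrt ((m + n : ℕ)))⁻¹ := by
  induction n with
  | zero => simp
  | succ n ih =>
    rw [sum_range_succ]
    have hpos : (0 : ℝ) < ((m + n : ℕ) : ℝ) := by
      have : 0 < m + n := by omega
      exact_mod_cast this
    set x : ℝ := ((m + n : ℕ) : ℝ) with hx
    have hcast : (((m + (n + 1) : ℕ) : ℝ)) = x + 1 := by
      rw [hx]; push_cast; ring
    rw [hcast]
    have h1 : 0 < Real.sqrt (x + 1) := Real.sqrt_pos.mpr (by positivity)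
    have h2 : 0 < Real.sqrt x := Real.sqrt_pos.mpr hpos
    have hs1 : Real.sqrt (x + 1) ^ 2 = x + 1 := Real.sq_sqrt (by positivity)
    have hs2 : Real.sqrt x ^ 2 = x := Real.sq_sqrt hpos.le
    have key : (Real.sqrt (x + 1))⁻¹ * (x + 1)⁻¹ ≤
        2 * (Real.sqrt x)⁻¹ - 2 * (Real.sqrt (x + 1))⁻¹ := by
      set a := Real.sqrt x
      set b := Real.sqrt (x + 1)
      have hab : a ≤ b := Real.sqrt_le_sqrt (by linarith)
      have hb2 : x + 1 = b ^ 2 := hs1.symm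
      have ha2 : x = a ^ 2 := hs2.symm
      have hdiff : b ^ 2 - a ^ 2 = 1 := by rw [← hb2, ← ha2]; ring
      rw [hb2]
      have e : 2 * a⁻¹ - 2 * b⁻¹ = 2 * (b - a) / (a * b) := by
        field_simp
      rw [e]
      rw [show b⁻¹ * (b ^ 2)⁻¹ = 1 / b ^ 3 by field_simp]
      rw [div_le_div_iff₀ (by positivity) (by positivity)]
      have h5 : (b - a) * (b + a) = 1 := by nlinarith
      have h6 : 0 < b - a := by
        by_contra h
        have : b - a = 0 := le_antisymm (not_lt.mp h) (sub_nonneg.mpr hab)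
        rw [this] at h5
        simp at h5
      have h7 : b + a ≤ 2 * b := by linarith
      have h8 : 1 ≤ (b - a) * (2 * b) := by
        calc 1 = (b - a) * (b + a) := h5.symm
          _ ≤ (b - a) * (2 * b) := by exact mul_le_mul_of_nonneg_left h7 h6.le
      have h9 : a * b ≤ b ^ 2 := by nlinarith
      have h10 : 0 < b ^ 2 := by positivity
      nlinarith [mul_le_mul_of_nonneg_right h8 h10.le, mul_nonneg h6.le h10.le]
    linarith [ih]

/-- Schur type bound for the kernel `1 / (i + j + 1)` with weights `sqrt (j + 1)`. -/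
lemma schur_sum (i d : ℕ) :
    ∑ j ∈ range d, (Real.sqrt (j + 1))⁻¹ * ((i : ℝ) + j + 1)⁻¹ ≤ 4 * (Real.sqrt (i + 1))⁻¹ := by
  have hi : (0 : ℝ) < (i : ℝ) + 1 := by positivity
  have hs : 0 < Real.sqrt ((i : ℝ) + 1) := Real.sqrt_pos.mpr hi
  have hss : Real.sqrt ((i : ℝ) + 1) ^ 2 = i + 1 := Real.sq_sqrt hi.le
  -- split into small j and large j
  have hf : ∀ j : ℕ, 0 ≤ (Real.sqrt (j + 1))⁻¹ * ((i : ℝ) + j + 1)⁻¹ := fun j => by positivity
  have h1 : ∀ s : Finset ℕ, (∀ j ∈ s, j < i + 1) →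
      ∑ j ∈ s, (Real.sqrt (j + 1))⁻¹ * ((i : ℝ) + j + 1)⁻¹ ≤ 2 * (Real.sqrt (i + 1))⁻¹ := by
    intro s hsub
    calc ∑ j ∈ s, (Real.sqrt (j + 1))⁻¹ * ((i : ℝ) + j + 1)⁻¹
        ≤ ∑ j ∈ range (i + 1), (Real.sqrt (j + 1))⁻¹ * ((i : ℝ) + 1)⁻¹ := by
          refine le_trans (sum_le_sum ?_) (sum_le_sum_of_subset_of_nonneg ?_ ?_)
          · intro j _
            apply mul_le_mul_of_nonneg_left _ (by positivity)
            apply inv_anti₀ hi
            have : (0 : ℝ) ≤ j := by positivity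
            linarith
          · intro j hj
            exact mem_range.mpr (hsub j hj)
          · intros; positivity
      _ = (∑ j ∈ range (i + 1), (Real.sqrt (j + 1))⁻¹) * ((i : ℝ) + 1)⁻¹ := by
          rw [sum_mul]
      _ ≤ (2 * Real.sqrt ((i + 1 : ℕ) : ℝ)) * ((i : ℝ) + 1)⁻¹ := by
          apply mul_le_mul_of_nonneg_right (sum_inv_sqrt_le (i + 1)) (by positivity)
      _ = 2 * (Real.sqrt (i + 1))⁻¹ := by
          push_cast
          have e : ((i : ℝ) + 1)⁻¹ = (Real.sqrt ((i : ℝ) + 1))⁻¹ * (Real.sqrt ((i : ℝ) + 1))⁻¹ := by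
            rw [← mul_inv, ← sq, hss]
          rw [e]
          field_simp
  have h2 : ∀ s : Finset ℕ, (∀ j ∈ s, i + 1 ≤ j) →
      ∑ j ∈ s, (Real.sqrt (j + 1))⁻¹ * ((i : ℝ) + j + 1)⁻¹ ≤ 2 * (Real.sqrt (i + 1))⁻¹ := by
    intro s hsub
    -- embed s in an interval
    obtain ⟨M, hM⟩ : ∃ M, ∀ j ∈ s, j < M :=
      ⟨s.sup id + 1, fun j hj => Nat.lt_succ_of_le (le_sup (f := id) hj)⟩
    have hsub2 : s ⊆ (range (M - (i + 1))).image (fun t => (i + 1) + t) := by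
      intro j hj
      refine mem_image.mpr ⟨j - (i + 1), mem_range.mpr ?_, ?_⟩
      · have := hsub j hj
        have := hM j hj
        omega
      · have := hsub j hj
        omega
    calc ∑ j ∈ s, (Real.sqrt (j + 1))⁻¹ * ((i : ℝ) + j + 1)⁻¹
        ≤ ∑ j ∈ (range (M - (i + 1))).image (fun t => (i + 1) + t),
            (Real.sqrt (j + 1))⁻¹ * ((j : ℝ) + 1)⁻¹ := by
          refine le_trans (sum_le_sum ?_) (sum_le_sum_of_subset_of_nonneg hsub2 ?_)
          · intro j _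
            apply mul_le_mul_of_nonneg_left _ (by positivity)
            apply inv_anti₀ (by positivity)
            have : (0 : ℝ) ≤ i := by positivity
            linarith
          · intros; positivity
      _ = ∑ t ∈ range (M - (i + 1)), ((Real.sqrt (((i + 1) + t : ℕ) + 1))⁻¹ *
            (((i + 1) + t : ℕ) + 1 : ℝ)⁻¹) := by
          rw [sum_image]
          intro a _ b _ h
          simpa using h
      _ ≤ 2 * (Real.sqrt ((i + 1 : ℕ) : ℝ))⁻¹ - 2 * (Real.sqrt (((i + 1) + (M - (i + 1)) : ℕ)))⁻¹ :=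
          sum_inv_pow_three_half_le (i + 1) (by omega) _
      _ ≤ 2 * (Real.sqrt (i + 1))⁻¹ := by
          have : 0 ≤ (Real.sqrt (((i + 1) + (M - (i + 1)) : ℕ)))⁻¹ := by positivity
          push_cast at this ⊢
          linarith
  rw [← sum_filter_add_sum_filter_not (range d) (fun j => j < i + 1)]
  have a1 := h1 ((range d).filter (fun j => j < i + 1)) (fun j hj => (mem_filter.mp hj).2)
  have a2 := h2 ((range d).filter (fun j => ¬ j < i + 1))
    (fun j hj => by have := (mem_filter.mp hj).2; omega)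
  linarith

/-- A form of Hilbert's inequality with constant 4 (squares on the right hand side). -/
theorem hilbert_ineq (d : ℕ) (u v : ℕ → ℝ) :
    ∑ i ∈ range d, ∑ j ∈ range d, |u i| * |v j| * ((i : ℝ) + j + 1)⁻¹ ≤
      2 * ∑ i ∈ range d, u i ^ 2 + 2 * ∑ j ∈ range d, v j ^ 2 := by
  -- pointwise AM-GM with weights
  have hpt : ∀ i j : ℕ, |u i| * |v j| * ((i : ℝ) + j + 1)⁻¹ ≤
      (1 / 2) * (u i ^ 2 * (Real.sqrt (i + 1) * ((Real.sqrt (j + 1))⁻¹ * ((i : ℝ) + j + 1)⁻¹))) +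
      (1 / 2) * (v j ^ 2 * (Real.sqrt (j + 1) * ((Real.sqrt (i + 1))⁻¹ * ((j : ℝ) + i + 1)⁻¹))) := by
    intro i j
    have hi : 0 < Real.sqrt ((i : ℝ) + 1) := Real.sqrt_pos.mpr (by positivity)
    have hj : 0 < Real.sqrt ((j : ℝ) + 1) := Real.sqrt_pos.mpr (by positivity)
    have hk : (0 : ℝ) < (i : ℝ) + j + 1 := by positivity
    have hcomm : (j : ℝ) + i + 1 = (i : ℝ) + j + 1 := by ring
    rw [hcomm]
    set a := Real.sqrt ((i : ℝ) + 1)
    set b := Real.sqrt ((j : ℝ) + 1)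
    set K := ((i : ℝ) + j + 1)⁻¹
    have hK : 0 < K := by positivity
    have e : (1 / 2) * (u i ^ 2 * (a * (b⁻¹ * K))) + (1 / 2) * (v j ^ 2 * (b * (a⁻¹ * K)))
        - |u i| * |v j| * K = K * (1 / 2) * ((|u i| * a - |v j| * b) ^ 2) * (a⁻¹ * b⁻¹) := by
      have hu : u i ^ 2 = |u i| ^ 2 := (sq_abs _).symm
      have hv : v j ^ 2 = |v j| ^ 2 := (sq_abs _).symm
      rw [hu, hv]
      field_simp
      ring
    have : 0 ≤ K * (1 / 2) * ((|u i| * a - |v j| * b) ^ 2) * (a⁻¹ * b⁻¹) := by positivity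
    linarith
  have hA : ∀ i : ℕ, ∑ j ∈ range d,
      (Real.sqrt (i + 1) * ((Real.sqrt (j + 1))⁻¹ * ((i : ℝ) + j + 1)⁻¹)) ≤ 4 := by
    intro i
    rw [← mul_sum]
    have hi : 0 < Real.sqrt ((i : ℝ) + 1) := Real.sqrt_pos.mpr (by positivity)
    calc _ ≤ Real.sqrt ((i : ℝ) + 1) * (4 * (Real.sqrt (i + 1))⁻¹) :=
          mul_le_mul_of_nonneg_left (schur_sum i d) hi.le
      _ = 4 := by field_simp
  calc ∑ i ∈ range d, ∑ j ∈ range d, |u i| * |v j| * ((i : ℝ) + j + 1)⁻¹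
      ≤ ∑ i ∈ range d, ∑ j ∈ range d,
        ((1 / 2) * (u i ^ 2 * (Real.sqrt (i + 1) * ((Real.sqrt (j + 1))⁻¹ * ((i : ℝ) + j + 1)⁻¹))) +
        (1 / 2) * (v j ^ 2 * (Real.sqrt (j + 1) * ((Real.sqrt (i + 1))⁻¹ * ((j : ℝ) + i + 1)⁻¹)))) :=
        sum_le_sum fun i _ => sum_le_sum fun j _ => hpt i j
    _ = (1 / 2) * ∑ i ∈ range d, (u i ^ 2 * ∑ j ∈ range d,
          (Real.sqrt (i + 1) * ((Real.sqrt (j + 1))⁻¹ * ((i : ℝ) + j + 1)⁻¹))) +
        (1 / 2) * ∑ j ∈ range d, (v j ^ 2 * ∑ i ∈ range d,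
          (Real.sqrt (j + 1) * ((Real.sqrt (i + 1))⁻¹ * ((j : ℝ) + i + 1)⁻¹))) := by
        simp only [sum_add_distrib, mul_sum]
        congr 1
        rw [sum_comm]
    _ ≤ (1 / 2) * ∑ i ∈ range d, (u i ^ 2 * 4) + (1 / 2) * ∑ j ∈ range d, (v j ^ 2 * 4) := by
        gcongr with i _ j _
        · exact hA i
        · exact hA j
    _ = _ := by
        simp only [← sum_mul]
        ring

end Vale.Agent.Lib.P110
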