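import Vale.Agent.Lib.P110.FejerRiesz
import Vale.Agent.Lib.P110.Hilbert

open Polynomial Finset
open scoped ComplexConjugate

namespace Vale.Agent.Lib.P110

/-- Hardy type inequality for a polynomial positive on the circle: the low coefficients,
weighted by `1 / (n + 1)`, are controlled by the middle coefficient. -/
theorem hardy_coeff {d : ℕ} {p : ℂ[X]} (hd : p.natDegree = 2 * d) (hp : PosCircle d p) :
    ∃ S : ℝ, p.coeff d = (S : ℂ) ∧
      ∑ n ∈ range d, ‖p.coeff n‖ * ((n : ℝ) + 1)⁻¹ ≤ 4 * S := by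
  obtain ⟨W, hWd, hW⟩ := fejer_riesz_strict d p hd hp
  set V : ℂ[X] := reflect d (W.map (starRingEnd ℂ)) with hV
  have hVeval : ∀ z : ℂ, ‖z‖ = 1 → V.eval z = z ^ d * conj (W.eval z) := by
    intro z hz
    have hz0 := ne_zero_of_norm hz
    let _ : Invertible z⁻¹ := invertibleOfNonzero (inv_ne_zero hz0)
    have hdeg : (W.map (starRingEnd ℂ)).natDegree ≤ d := by
      rw [Polynomial.natDegree_map]; exact hWd
    have key := Polynomial.eval₂_reflect_mul_pow (RingHom.id ℂ) z⁻¹ d (W.map (starRingEnd ℂ)) hdeg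
    rw [invOf_eq_inv, inv_inv] at key
    simp only [Polynomial.eval₂_id] at key
    have h1 : eval z⁻¹ (W.map (starRingEnd ℂ)) = conj (eval z W) := by
      rw [← conj_eq_inv hz, Polynomial.eval_map, Polynomial.eval₂_at_apply]
    rw [h1] at key
    have hw : z ^ d * z⁻¹ ^ d = 1 := by
      rw [← mul_pow, mul_inv_cancel₀ hz0, one_pow]
    calc V.eval z = V.eval z * (z ^ d * z⁻¹ ^ d) := by rw [hw, mul_one]
      _ = z ^ d * (V.eval z * z⁻¹ ^ d) := by ring
      _ = _ := by rw [key]
  have hpWV : p = W * V := by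
    apply Polynomial.eq_of_infinite_eval_eq
    refine circle_infinite.mono ?_
    intro z hz
    have hz1 : ‖z‖ = 1 := hz
    show eval z p = eval z (W * V)
    rw [hW z hz1, Polynomial.eval_mul, hVeval z hz1]
    have h2 : ((‖W.eval z‖ ^ 2 : ℝ) : ℂ) = W.eval z * conj (W.eval z) := by
      rw [Complex.mul_conj']
      push_cast
      ring
    rw [h2]
    ring
  -- coefficients of V
  have hVc : ∀ l, l ≤ d → V.coeff l = conj (W.coeff (d - l)) := by
    intro l hl
    rw [hV, Polynomial.coeff_reflect, Polynomial.revAt_le hl, Polynomial.coeff_map]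
  set u : ℕ → ℝ := fun i => ‖W.coeff i‖ with hu
  set v : ℕ → ℝ := fun l => ‖W.coeff (d - l)‖ with hv
  have hcoeff : ∀ n, n ≤ d → p.coeff n =
      ∑ x ∈ antidiagonal n, W.coeff x.1 * conj (W.coeff (d - x.2)) := by
    intro n hn
    rw [hpWV, Polynomial.coeff_mul]
    apply sum_congr rfl
    intro x hx
    have hx' : x.1 + x.2 = n := mem_antidiagonal.mp hx
    rw [hVc x.2 (by omega)]
  have hnorm : ∀ n, n ≤ d → ‖p.coeff n‖ ≤ ∑ x ∈ antidiagonal n, u x.1 * v x.2 := by
    intro n hn
    rw [hcoeff n hn]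
    refine (norm_sum_le _ _).trans (sum_le_sum ?_)
    intro x _
    rw [norm_mul, RCLike.norm_conj]
  have hS : ∑ i ∈ range (d + 1), u i ^ 2 = ∑ i ∈ range (d + 1), v i ^ 2 := by
    rw [← Finset.sum_range_reflect]
    apply sum_congr rfl
    intro i hi
    have hi' : i < d + 1 := mem_range.mp hi
    have : d + 1 - 1 - i = d - i := by omega
    rw [hv, hu]
    simp only [this]
  refine ⟨∑ i ∈ range (d + 1), u i ^ 2, ?_, ?_⟩
  · rw [hcoeff d le_rfl, Finset.Nat.sum_antidiagonal_eq_sum_range_succ_mk]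
    push_cast
    apply sum_congr rfl
    intro i hi
    have hi' : i < d + 1 := mem_range.mp hi
    have e : d - (d - i) = i := by omega
    simp only [e, hu]
    rw [Complex.mul_conj']
  · -- now the Hilbert inequality
    set F : ℕ × ℕ → ℝ := fun x => |u x.1| * |v x.2| * ((x.1 : ℝ) + x.2 + 1)⁻¹ with hF
    have hFnn : ∀ x, 0 ≤ F x := fun x => by positivity
    have hu0 : ∀ i, |u i| = u i := fun i => abs_of_nonneg (norm_nonneg _)
    have hv0 : ∀ i, |v i| = v i := fun i => abs_of_nonneg (norm_nonneg _)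
    have step1 : ∑ n ∈ range d, ‖p.coeff n‖ * ((n : ℝ) + 1)⁻¹ ≤
        ∑ n ∈ range d, ∑ x ∈ antidiagonal n, F x := by
      apply sum_le_sum
      intro n hn
      have hn' : n < d := mem_range.mp hn
      calc ‖p.coeff n‖ * ((n : ℝ) + 1)⁻¹
          ≤ (∑ x ∈ antidiagonal n, u x.1 * v x.2) * ((n : ℝ) + 1)⁻¹ :=
            mul_le_mul_of_nonneg_right (hnorm n hn'.le) (by positivity)
        _ = ∑ x ∈ antidiagonal n, F x := by
            rw [sum_mul]
            apply sum_congr rfl
            intro x hx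
            have hx' : x.1 + x.2 = n := mem_antidiagonal.mp hx
            have : ((x.1 : ℝ) + x.2) = n := by exact_mod_cast hx'
            simp only [hF, hu0, hv0, this]
    have hdisj : ∀ a ∈ range d, ∀ b ∈ range d, a ≠ b →
        Disjoint (antidiagonal a) (antidiagonal b) := by
      intro a _ b _ hab
      rw [Finset.disjoint_left]
      intro x hx hx2
      exact hab ((mem_antidiagonal.mp hx).symm.trans (mem_antidiagonal.mp hx2))
    have step2 : ∑ n ∈ range d, ∑ x ∈ antidiagonal n, F x ≤
        ∑ x ∈ range (d + 1) ×ˢ range (d + 1), F x := by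
      rw [← Finset.sum_biUnion hdisj]
      apply sum_le_sum_of_subset_of_nonneg
      · intro x hx
        obtain ⟨n, hn, hx'⟩ := mem_biUnion.mp hx
        have h1 := mem_antidiagonal.mp hx'
        have h2 := mem_range.mp hn
        exact mem_product.mpr ⟨mem_range.mpr (by omega), mem_range.mpr (by omega)⟩
      · intros; exact hFnn _
    have step3 := hilbert_ineq (d + 1) u v
    rw [Finset.sum_product] at step2
    rw [← hS] at step3
    linarith

end Vale.Agent.Lib.P110
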