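import Vale.Agent.Lib.P110.Hardy

open Polynomial Finset
open scoped ComplexConjugate

namespace Vale.Agent.Lib.P110

/-- The integer polynomial with coefficients `ε k`, `k < N`. -/
noncomputable def lit (N : ℕ) (ε : ℕ → ℤ) : ℤ[X] := ∑ k ∈ range N, C (ε k) * X ^ k

lemma lit_coeff (N : ℕ) (ε : ℕ → ℤ) (k : ℕ) :
    (lit N ε).coeff k = if k < N then ε k else 0 := by
  unfold lit
  simp only [finsetSum_coeff, coeff_C_mul, coeff_X_pow]
  by_cases h : k < N
  · rw [if_pos h, Finset.sum_eq_single k]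
    · simp
    · intro b _ hb
      rw [if_neg (Ne.symm hb), mul_zero]
    · intro hk
      exact absurd (mem_range.mpr h) hk
  · rw [if_neg h]
    apply Finset.sum_eq_zero
    intro b hb
    have : k ≠ b := by
      intro e
      exact h (e ▸ mem_range.mp hb)
    rw [if_neg this, mul_zero]

lemma lit_natDegree_le (d : ℕ) (ε : ℕ → ℤ) : (lit (d + 1) ε).natDegree ≤ d := by
  rw [natDegree_le_iff_coeff_eq_zero]
  intro n hn
  rw [lit_coeff, if_neg (by omega)]

/-- Sum of the first odd reciprocals against the logarithm. -/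
lemma log_lt_sum (M : ℕ) (hM : 1 ≤ M) :
    Real.log (2 * M + 1) / 2 < ∑ m ∈ range M, ((2 * (m : ℝ) + 1))⁻¹ := by
  induction M, hM using Nat.le_induction with
  | base =>
    have : Real.log 3 < 2 := by
      have := Real.log_lt_sub_one_of_pos (x := 3) (by norm_num) (by norm_num)
      linarith
    simp only [range_one, sum_singleton]
    norm_num
    linarith
  | succ M hM ih =>
    rw [sum_range_succ]
    have hpos : (0 : ℝ) < 2 * M + 1 := by positivity
    have h1 : Real.log (2 * ((M + 1 : ℕ) : ℝ) + 1) ≤ Real.log (2 * M + 1) + 2 * (2 * (M : ℝ) + 1)⁻¹ := by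
      have e : 2 * ((M + 1 : ℕ) : ℝ) + 1 = (2 * M + 1) * (1 + 2 * (2 * (M : ℝ) + 1)⁻¹) := by
        push_cast
        field_simp
        ring
      have hpos2 : 0 < 1 + 2 * (2 * (M : ℝ) + 1)⁻¹ := by positivity
      rw [e, Real.log_mul hpos.ne' hpos2.ne']
      have := Real.log_le_sub_one_of_pos hpos2
      linarith
    have : (2 * (M : ℝ) + 1)⁻¹ = (2 * (M : ℝ) + 1)⁻¹ := rfl
    linarith

/-- The basic inequality: if the polynomial `S z^d + σ (N z^d - P(z) z^d P(1/z))` is positive on the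
circle then `4 S` dominates the sum of reciprocals. -/
lemma main_ineq (d : ℕ) (ε : ℕ → ℤ) (hε : ∀ k < d + 1, ε k = 1 ∨ ε k = -1) (σ : ℝ) (hσ : σ = 1 ∨ σ = -1)
    (S : ℝ)
    (hpos : ∀ z : ℂ, ‖z‖ = 1 →
      0 < S + σ * (((d + 1 : ℕ) : ℝ) - ‖∑ k ∈ range (d + 1), (ε k : ℂ) * z ^ k‖ ^ 2)) :
    ∑ m ∈ range ((d + 1) / 2), ((2 * (m : ℝ) + 1))⁻¹ ≤ 4 * S := by
  set i : ℤ →+* ℂ := Int.castRingHom ℂ with hi
  set P : ℤ[X] := lit (d + 1) ε with hP
  set R : ℤ[X] := reflect d P with hR
  set Ψ : ℤ[X] := P * R with hΨ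
  have hPcoeff : ∀ k, k ≤ d → P.coeff k = ε k := by
    intro k hk
    rw [hP, lit_coeff, if_pos (by omega)]
  have hRcoeff : ∀ l, l ≤ d → R.coeff l = ε (d - l) := by
    intro l hl
    rw [hR, coeff_reflect, revAt_le hl, hPcoeff _ (by omega)]
  have hεε : ∀ k, k ≤ d → ε k * ε k = 1 := by
    intro k hk
    rcases hε k (by omega) with h | h <;> rw [h] <;> norm_num
  have hεne : ∀ k, k ≤ d → ε k ≠ 0 := by
    intro k hk
    rcases hε k (by omega) with h | h <;> rw [h] <;> norm_num
  have hΨlow : ∀ n, n ≤ d → Ψ.coeff n = ∑ x ∈ antidiagonal n, ε x.1 * ε (d - x.2) := by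
    intro n hn
    rw [hΨ, coeff_mul]
    apply sum_congr rfl
    intro x hx
    have hx' := mem_antidiagonal.mp hx
    rw [hPcoeff _ (by omega), hRcoeff _ (by omega)]
  have hΨmid : Ψ.coeff d = (d : ℤ) + 1 := by
    rw [hΨlow d le_rfl, Finset.Nat.sum_antidiagonal_eq_sum_range_succ_mk]
    have : ∀ k ∈ range d.succ, ε (k, d - k).1 * ε (d - (k, d - k).2) = 1 := by
      intro k hk
      have hk' := mem_range.mp hk
      have e : d - (d - k) = k := by omega
      simp only [e]
      exact hεε k (by omega)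
    rw [sum_congr rfl this]
    simp
  have hRdeg : R.natDegree ≤ d := by
    rw [natDegree_le_iff_coeff_eq_zero]
    intro N hN
    rw [hR, coeff_reflect, revAt_eq_self_of_lt hN, hP, lit_coeff, if_neg (by omega)]
  have hPdeg : P.natDegree ≤ d := lit_natDegree_le d ε
  have hΨdeg : Ψ.natDegree ≤ 2 * d := by
    calc Ψ.natDegree ≤ P.natDegree + R.natDegree := natDegree_mul_le
      _ ≤ 2 * d := by omega
  have hΨtop : Ψ.coeff (2 * d) = ε d * ε 0 := by
    rw [hΨ, two_mul, coeff_mul_add_eq_of_natDegree_le hPdeg hRdeg,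
      hPcoeff d le_rfl, hRcoeff d le_rfl]
    simp
  -- parity of the low coefficients
  have hodd : ∀ n, n < d → Even n → Ψ.coeff n ≠ 0 := by
    intro n hn heven h0
    rw [hΨlow n hn.le] at h0
    have h2 : ((∑ x ∈ antidiagonal n, ε x.1 * ε (d - x.2) : ℤ) : ZMod 2) = 1 := by
      have hterm : ∀ x ∈ antidiagonal n, (((ε x.1 * ε (d - x.2) : ℤ)) : ZMod 2) = 1 := by
        intro x hx
        have hx' := mem_antidiagonal.mp hx
        have hunit : ∀ k, k ≤ d → ((ε k : ℤ) : ZMod 2) = 1 := by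
          intro k hk
          rcases hε k (by omega) with h | h <;> rw [h] <;> decide
        push_cast
        rw [hunit _ (by omega), hunit _ (by omega), one_mul]
      push_cast at hterm ⊢
      rw [sum_congr rfl hterm]
      simp only [sum_const, Finset.Nat.card_antidiagonal, nsmul_eq_mul, mul_one]
      obtain ⟨t, rfl⟩ := heven
      have : ((t + t + 1 : ℕ) : ZMod 2) = ((2 * t + 1 : ℕ) : ZMod 2) := by
        congr 1; ring
      rw [this]
      push_cast
      have h2z : (2 : ZMod 2) = 0 := rfl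
      rw [h2z]
      ring
    rw [h0] at h2
    simp at h2
  -- the complex polynomial
  set A : ℂ[X] := Ψ.map i with hA
  have hAeval : ∀ z : ℂ, ‖z‖ = 1 → A.eval z =
      z ^ d * ((‖∑ k ∈ range (d + 1), (ε k : ℂ) * z ^ k‖ ^ 2 : ℝ) : ℂ) := by
    intro z hz
    have hz0 := ne_zero_of_norm hz
    let _ : Invertible z⁻¹ := invertibleOfNonzero (inv_ne_zero hz0)
    have key := Polynomial.eval₂_reflect_mul_pow i z⁻¹ d P hPdeg
    rw [invOf_eq_inv, inv_inv] at key
    have hPval : ∀ w : ℂ, eval₂ i w P = ∑ k ∈ range (d + 1), (ε k : ℂ) * w ^ k := by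
      intro w
      rw [hP, lit, eval₂_finsetSum]
      apply sum_congr rfl
      intro k _
      rw [eval₂_mul, eval₂_C, eval₂_pow, eval₂_X]
      simp [hi]
    set val : ℂ := ∑ k ∈ range (d + 1), (ε k : ℂ) * z ^ k with hval
    have hconj : eval₂ i z⁻¹ P = conj val := by
      rw [hPval, hval, map_sum]
      apply sum_congr rfl
      intro k _
      rw [map_mul, map_pow, conj_eq_inv hz, map_intCast]
    have hReval : eval₂ i z R = z ^ d * conj val := by
      have hw : z ^ d * z⁻¹ ^ d = 1 := by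
        rw [← mul_pow, mul_inv_cancel₀ hz0, one_pow]
      rw [hconj] at key
      calc eval₂ i z R = eval₂ i z R * (z ^ d * z⁻¹ ^ d) := by rw [hw, mul_one]
        _ = z ^ d * (eval₂ i z R * z⁻¹ ^ d) := by ring
        _ = _ := by rw [key]
    rw [hA, eval_map, hΨ, eval₂_mul, hReval, hPval]
    have h2 : ((‖val‖ ^ 2 : ℝ) : ℂ) = val * conj val := by
      rw [Complex.mul_conj']
      push_cast
      ring
    rw [h2]
    ring
  set p : ℂ[X] := C (S : ℂ) * X ^ d + C (σ : ℂ) * (C (((d + 1 : ℕ) : ℂ)) * X ^ d - A) with hp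
  have hσ0 : (σ : ℂ) ≠ 0 := by
    rcases hσ with h | h <;> rw [h] <;> norm_num
  have hpcoeff : ∀ n, n ≠ d → p.coeff n = - (σ : ℂ) * ((Ψ.coeff n : ℤ) : ℂ) := by
    intro n hn
    rw [hp, coeff_add, coeff_C_mul, coeff_X_pow, if_neg hn, mul_zero, zero_add, coeff_C_mul,
      coeff_sub, coeff_C_mul, coeff_X_pow, if_neg hn, mul_zero, zero_sub, hA, coeff_map]
    simp [hi]
  have hpmid : p.coeff d = (S : ℂ) := by
    rw [hp, coeff_add, coeff_C_mul, coeff_X_pow, if_pos rfl, mul_one, coeff_C_mul,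
      coeff_sub, coeff_C_mul, coeff_X_pow, if_pos rfl, mul_one, hA, coeff_map, hΨmid]
    simp [hi]
  have hpdeg : p.natDegree = 2 * d := by
    by_cases hd0 : d = 0
    · subst hd0
      have : p.natDegree ≤ 0 := by
        rw [natDegree_le_iff_coeff_eq_zero]
        intro n hn
        rw [hpcoeff n (by omega)]
        have : Ψ.coeff n = 0 := coeff_eq_zero_of_natDegree_lt (by omega)
        rw [this]
        simp
      omega
    · have hle : p.natDegree ≤ 2 * d := by
        rw [natDegree_le_iff_coeff_eq_zero]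
        intro n hn
        rw [hpcoeff n (by omega)]
        have : Ψ.coeff n = 0 := coeff_eq_zero_of_natDegree_lt (by omega)
        rw [this]
        simp
      apply le_antisymm hle
      apply le_natDegree_of_ne_zero
      rw [hpcoeff (2 * d) (by omega), hΨtop]
      apply mul_ne_zero (neg_ne_zero.mpr hσ0)
      exact_mod_cast mul_ne_zero (hεne d le_rfl) (hεne 0 (by omega))
  have hpos' : PosCircle d p := by
    intro z hz
    refine ⟨_, hpos z hz, ?_⟩
    rw [hp]
    simp only [eval_add, eval_mul, eval_C, eval_pow, eval_X, eval_sub]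
    rw [hAeval z hz]
    push_cast
    ring
  obtain ⟨S', hS', hhardy⟩ := hardy_coeff hpdeg hpos'
  have hSS : S' = S := by
    rw [hpmid] at hS'
    exact_mod_cast hS'.symm
  rw [hSS] at hhardy
  refine le_trans ?_ hhardy
  -- compare the sums
  have hinj : Set.InjOn (fun m : ℕ => 2 * m) ((range ((d + 1) / 2) : Finset ℕ) : Set ℕ) := by
    intro a _ b _ h
    simpa using h
  have hsub : (range ((d + 1) / 2)).image (fun m : ℕ => 2 * m) ⊆ range d := by
    intro n hn
    obtain ⟨m, hm, rfl⟩ := mem_image.mp hn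
    have := mem_range.mp hm
    exact mem_range.mpr (by omega)
  calc ∑ m ∈ range ((d + 1) / 2), ((2 * (m : ℝ) + 1))⁻¹
      ≤ ∑ m ∈ range ((d + 1) / 2), ‖p.coeff (2 * m)‖ * (((2 * m : ℕ) : ℝ) + 1)⁻¹ := by
        apply sum_le_sum
        intro m hm
        have hm' := mem_range.mp hm
        have hn : 2 * m < d := by omega
        have h1 : 1 ≤ ‖p.coeff (2 * m)‖ := by
          rw [hpcoeff _ (by omega), norm_mul, norm_neg]
          have hσn : ‖(σ : ℂ)‖ = 1 := by
            rcases hσ with h | h <;> rw [h] <;> simp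
          rw [hσn, one_mul, Complex.norm_intCast]
          have h3 := hodd (2 * m) hn (even_two_mul m)
          exact_mod_cast Int.one_le_abs h3
        push_cast
        have h4 : (0 : ℝ) ≤ (2 * (m : ℝ) + 1)⁻¹ := by positivity
        nlinarith
    _ = ∑ n ∈ (range ((d + 1) / 2)).image (fun m : ℕ => 2 * m),
          ‖p.coeff n‖ * ((n : ℝ) + 1)⁻¹ := by
        rw [sum_image hinj]
    _ ≤ ∑ n ∈ range d, ‖p.coeff n‖ * ((n : ℝ) + 1)⁻¹ :=
        sum_le_sum_of_subset_of_nonneg hsub (fun _ _ _ => by positivity)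

/-- Upper and lower bound statement. -/
theorem log_bound (N : ℕ) (hN : 1 ≤ N) (ε : ℕ → ℤ) (hε : ∀ k < N, ε k = 1 ∨ ε k = -1) :
    (∃ z : ℂ, ‖z‖ = 1 ∧ (N : ℝ) + Real.log N / 8 ≤ ‖∑ k ∈ range N, (ε k : ℂ) * z ^ k‖ ^ 2) ∧
    (∃ z : ℂ, ‖z‖ = 1 ∧ ‖∑ k ∈ range N, (ε k : ℂ) * z ^ k‖ ^ 2 ≤ (N : ℝ) - Real.log N / 8) := by
  by_cases hN1 : N = 1
  · subst hN1
    have hval : ‖∑ k ∈ range 1, (ε k : ℂ) * (1 : ℂ) ^ k‖ ^ 2 = 1 := by
      simp only [range_one, sum_singleton, pow_zero, mul_one, Complex.norm_intCast]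
      rcases hε 0 (by norm_num) with h | h <;> rw [h] <;> norm_num
    refine ⟨⟨1, by simp, ?_⟩, ⟨1, by simp, ?_⟩⟩ <;> rw [hval] <;> simp
  obtain ⟨d, rfl⟩ : ∃ d, N = d + 1 := ⟨N - 1, by omega⟩
  have hd : 1 ≤ d := by omega
  have hM : 1 ≤ (d + 1) / 2 := by omega
  have hlog := log_lt_sum ((d + 1) / 2) hM
  have hmono : Real.log ((d + 1 : ℕ) : ℝ) ≤ Real.log (2 * (((d + 1) / 2 : ℕ) : ℝ) + 1) := by
    apply Real.log_le_log (by positivity)
    have : d + 1 ≤ 2 * ((d + 1) / 2) + 1 := by omega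
    exact_mod_cast this
  constructor
  · by_contra hcon
    push Not at hcon
    have := main_ineq d ε hε 1 (Or.inl rfl) (Real.log ((d + 1 : ℕ) : ℝ) / 8) (by
      intro z hz
      have := hcon z hz
      linarith)
    linarith
  · by_contra hcon
    push Not at hcon
    have := main_ineq d ε hε (-1) (Or.inr rfl) (Real.log ((d + 1 : ℕ) : ℝ) / 8) (by
      intro z hz
      have := hcon z hz
      linarith)
    linarith

end Vale.Agent.Lib.P110
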